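import Mathlib

/-!
# Wagner, fat splits: the finite core (helper404)

Eight labels `C D a2 a3 P Q b2 b3 = 0 1 2 3 4 5 6 7` and a symmetric touching relation `T`. Whenever
both `C, D` and `P, Q` are fat, `T` contains the Wagner graph `V_8` or a `K_5` model all of whose
classes have at most two labels.
-/

set_option linter.all false

namespace Vale.Agent.P235.K5.H404

/-- the relation contains a spanning Wagner graph -/
def HasV8 (T : Fin 8 → Fin 8 → Prop) : Prop :=
  ∃ σ : Equiv.Perm (Fin 8), ∀ i, T (σ i) (σ (i + 1)) ∧ T (σ i) (σ (i + 4))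

/-- the relation has a `K_5` model with classes of at most two (touching) labels -/
def HasK5 (T : Fin 8 → Fin 8 → Prop) : Prop :=
  ∃ g : Fin 8 → Fin 5, (∀ i j, g i = g j → i ≠ j → T i j) ∧
    ∀ c c', c ≠ c' → ∃ i j, g i = c ∧ g j = c' ∧ T i j

def E12 : List (Fin 8 × Fin 8) :=
  [(0, 4), (0, 5), (1, 4), (1, 5), (0, 6), (0, 7), (1, 6), (1, 7), (4, 2), (4, 3), (5, 2), (5, 3)]

def base : List (Fin 8 × Fin 8) := [(0, 1), (4, 5), (2, 6), (2, 7), (3, 6), (3, 7)]

def adj (m : List Bool) (i j : Fin 8) : Bool :=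
  base.any (fun e => (e.1 == i && e.2 == j) || (e.1 == j && e.2 == i)) ||
    (E12.zip m).any (fun p => p.2 && ((p.1.1 == i && p.1.2 == j) || (p.1.1 == j && p.1.2 == i)))

def le (m b : List Bool) : Bool := (m.zip b).all (fun p => !p.1 || p.2)

def tblK : List (List Bool × (Fin 8 → Fin 5)) :=
  [([false, false, false, true, true, true, false, true, true, true, false, true], ![0, 1, 2, 3, 2, 1, 0, 4]),
   ([false, false, false, true, true, true, false, true, true, true, true, false], ![0, 1, 2, 3, 3, 1, 0, 4]),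
   ([false, false, false, true, true, true, true, false, true, true, false, true], ![0, 1, 2, 3, 2, 1, 4, 0]),
   ([false, false, false, true, true, true, true, false, true, true, true, false], ![0, 1, 2, 3, 3, 1, 4, 0]),
   ([false, false, true, false, true, true, false, true, false, true, true, true], ![0, 1, 2, 3, 1, 2, 0, 4]),
   ([false, false, true, false, true, true, false, true, true, false, true, true], ![0, 1, 2, 3, 1, 3, 0, 4]),
   ([false, false, true, false, true, true, true, false, false, true, true, true], ![0, 1, 2, 3, 1, 2, 4, 0]),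
   ([false, false, true, false, true, true, true, false, true, false, true, true], ![0, 1, 2, 3, 1, 3, 4, 0]),
   ([false, false, true, true, true, true, false, true, false, true, true, false], ![0, 1, 2, 3, 3, 2, 0, 4]),
   ([false, false, true, true, true, true, false, true, true, false, false, true], ![0, 1, 2, 3, 2, 3, 0, 4]),
   ([false, false, true, true, true, true, true, false, false, true, true, false], ![0, 1, 2, 3, 3, 2, 4, 0]),
   ([false, false, true, true, true, true, true, false, true, false, false, true], ![0, 1, 2, 3, 2, 3, 4, 0]),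
   ([false, true, false, false, false, true, true, true, true, true, false, true], ![0, 1, 2, 3, 2, 0, 1, 4]),
   ([false, true, false, false, false, true, true, true, true, true, true, false], ![0, 1, 2, 3, 3, 0, 1, 4]),
   ([false, true, false, false, true, false, true, true, true, true, false, true], ![0, 1, 2, 3, 2, 0, 4, 1]),
   ([false, true, false, false, true, false, true, true, true, true, true, false], ![0, 1, 2, 3, 3, 0, 4, 1]),
   ([false, true, false, true, false, true, true, false, true, true, false, true], ![0, 1, 2, 3, 2, 4, 1, 0]),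
   ([false, true, false, true, false, true, true, false, true, true, true, false], ![0, 1, 2, 3, 3, 4, 1, 0]),
   ([false, true, false, true, true, false, false, true, true, true, false, true], ![0, 1, 2, 3, 2, 4, 0, 1]),
   ([false, true, false, true, true, false, false, true, true, true, true, false], ![0, 1, 2, 3, 3, 4, 0, 1]),
   ([true, false, false, false, false, true, true, true, false, true, true, true], ![0, 1, 2, 3, 0, 2, 1, 4]),
   ([true, false, false, false, false, true, true, true, true, false, true, true], ![0, 1, 2, 3, 0, 3, 1, 4]),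
   ([true, false, false, false, true, false, true, true, false, true, true, true], ![0, 1, 2, 3, 0, 2, 4, 1]),
   ([true, false, false, false, true, false, true, true, true, false, true, true], ![0, 1, 2, 3, 0, 3, 4, 1]),
   ([true, false, true, false, false, true, true, false, false, true, true, true], ![0, 1, 2, 3, 4, 2, 1, 0]),
   ([true, false, true, false, false, true, true, false, true, false, true, true], ![0, 1, 2, 3, 4, 3, 1, 0]),
   ([true, false, true, false, true, false, false, true, false, true, true, true], ![0, 1, 2, 3, 4, 2, 0, 1]),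
   ([true, false, true, false, true, false, false, true, true, false, true, true], ![0, 1, 2, 3, 4, 3, 0, 1]),
   ([true, true, false, false, false, true, true, true, false, true, true, false], ![0, 1, 2, 3, 3, 2, 1, 4]),
   ([true, true, false, false, false, true, true, true, true, false, false, true], ![0, 1, 2, 3, 2, 3, 1, 4]),
   ([true, true, false, false, true, false, true, true, false, true, true, false], ![0, 1, 2, 3, 3, 2, 4, 1]),
   ([true, true, false, false, true, false, true, true, true, false, false, true], ![0, 1, 2, 3, 2, 3, 4, 1])]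

def tblV : List (List Bool × (Fin 8 → Fin 8) × (Fin 8 → Fin 8)) :=
  [([false, true, true, false, false, true, true, false, false, true, true, false], ![0, 1, 6, 2, 5, 4, 3, 7], ![0, 1, 3, 6, 5, 4, 2, 7]),
   ([false, true, true, false, false, true, true, false, true, false, false, true], ![0, 1, 6, 3, 5, 4, 2, 7], ![0, 1, 6, 3, 5, 4, 2, 7]),
   ([false, true, true, false, true, false, false, true, false, true, true, false], ![0, 1, 7, 2, 5, 4, 3, 6], ![0, 1, 3, 6, 5, 4, 7, 2]),
   ([false, true, true, false, true, false, false, true, true, false, false, true], ![0, 1, 7, 3, 5, 4, 2, 6], ![0, 1, 6, 3, 5, 4, 7, 2]),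
   ([true, false, false, true, false, true, true, false, false, true, true, false], ![0, 1, 6, 3, 4, 5, 2, 7], ![0, 1, 6, 3, 4, 5, 2, 7]),
   ([true, false, false, true, false, true, true, false, true, false, false, true], ![0, 1, 6, 2, 4, 5, 3, 7], ![0, 1, 3, 6, 4, 5, 2, 7]),
   ([true, false, false, true, true, false, false, true, false, true, true, false], ![0, 1, 7, 3, 4, 5, 2, 6], ![0, 1, 6, 3, 4, 5, 7, 2]),
   ([true, false, false, true, true, false, false, true, true, false, false, true], ![0, 1, 7, 2, 4, 5, 3, 6], ![0, 1, 3, 6, 4, 5, 7, 2])]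

theorem le_sound {α : Type} (f : α → Bool) : ∀ (E : List α) (m : List Bool),
    le m (E.map f) = true → ∀ p ∈ E.zip m, p.2 = true → f p.1 = true := by
  intro E
  induction E with
  | nil => intro m _ p hp; simp at hp
  | cons e E ih =>
    intro m h p hp h2
    cases m with
    | nil => simp at hp
    | cons b m =>
      simp only [List.zip_cons_cons, List.mem_cons] at hp
      simp only [le, List.map_cons, List.zip_cons_cons, List.all_cons, Bool.and_eq_true] at h
      rcases hp with rfl | hp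
      · have := h.1
        simp only at h2
        simpa [h2] using this
      · exact ih m h.2 p hp h2

theorem adj_sound {T : Fin 8 → Fin 8 → Prop} (hs : ∀ i j, T i j → T j i) (m : List Bool)
    (hb : ∀ e ∈ base, T e.1 e.2) (hm : ∀ p ∈ E12.zip m, p.2 = true → T p.1.1 p.1.2) (i j : Fin 8)
    (h : adj m i j = true) : T i j := by
  rw [adj, Bool.or_eq_true, List.any_eq_true, List.any_eq_true] at h
  rcases h with ⟨e, he, h⟩ | ⟨p, hp, h⟩
  · simp only [Bool.or_eq_true, Bool.and_eq_true, beq_iff_eq] at h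
    rcases h with ⟨rfl, rfl⟩ | ⟨rfl, rfl⟩
    · exact hb e he
    · exact hs _ _ (hb e he)
  · simp only [Bool.or_eq_true, Bool.and_eq_true, beq_iff_eq] at h
    obtain ⟨h2, ⟨rfl, rfl⟩ | ⟨rfl, rfl⟩⟩ := h
    · exact hm p hp h2
    · exact hs _ _ (hm p hp h2)

theorem goodK : ∀ t ∈ tblK, (∀ i j, t.2 i = t.2 j → i ≠ j → adj t.1 i j = true) ∧
    ∀ c c', c ≠ c' → ∃ i j, t.2 i = c ∧ t.2 j = c' ∧ adj t.1 i j = true := by
  decide +kernel

theorem goodV : ∀ t ∈ tblV, (∀ i, t.2.2 (t.2.1 i) = i) ∧ (∀ i, t.2.1 (t.2.2 i) = i) ∧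
    ∀ i : Fin 8, adj t.1 (t.2.1 i) (t.2.1 (i + 1)) = true ∧
      adj t.1 (t.2.1 i) (t.2.1 (i + 4)) = true := by
  decide +kernel

def cons12 (b0 b1 b2 b3 b4 b5 b6 b7 b8 b9 b10 b11 : Bool) : Bool :=
  (b4 || b6) && (b5 || b7) && (b8 || b10) && (b9 || b11) && (b0 || b1 || b2 || b3) &&
    ((b4 && b5) || ((b0 || b1) && (b4 || b5))) && ((b6 && b7) || ((b2 || b3) && (b6 || b7))) &&
    ((b8 && b9) || ((b0 || b2) && (b8 || b9))) && ((b10 && b11) || ((b1 || b3) && (b10 || b11)))

theorem cover : ∀ b0 b1 b2 b3 b4 b5 b6 b7 b8 b9 b10 b11 : Bool,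
    cons12 b0 b1 b2 b3 b4 b5 b6 b7 b8 b9 b10 b11 = true →
    (tblK.any (fun t => le t.1 [b0, b1, b2, b3, b4, b5, b6, b7, b8, b9, b10, b11]) ||
      tblV.any (fun t => le t.1 [b0, b1, b2, b3, b4, b5, b6, b7, b8, b9, b10, b11])) = true := by
  decide +kernel

theorem core (T : Fin 8 → Fin 8 → Prop) (hs : ∀ i j, T i j → T j i) (h01 : T 0 1) (h45 : T 4 5)
    (h26 : T 2 6) (h27 : T 2 7) (h36 : T 3 6) (h37 : T 3 7) (c6 : T 0 6 ∨ T 1 6)
    (c7 : T 0 7 ∨ T 1 7) (p2 : T 4 2 ∨ T 5 2) (p3 : T 4 3 ∨ T 5 3)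
    (x : T 0 4 ∨ T 0 5 ∨ T 1 4 ∨ T 1 5)
    (fC : (T 0 6 ∧ T 0 7) ∨ ((T 0 4 ∨ T 0 5) ∧ (T 0 6 ∨ T 0 7)))
    (fD : (T 1 6 ∧ T 1 7) ∨ ((T 1 4 ∨ T 1 5) ∧ (T 1 6 ∨ T 1 7)))
    (fP : (T 4 2 ∧ T 4 3) ∨ ((T 4 0 ∨ T 4 1) ∧ (T 4 2 ∨ T 4 3)))
    (fQ : (T 5 2 ∧ T 5 3) ∨ ((T 5 0 ∨ T 5 1) ∧ (T 5 2 ∨ T 5 3))) : HasV8 T ∨ HasK5 T := by
  classical
  have hb : ∀ e ∈ base, T e.1 e.2 := by
    intro e he
    simp only [base, List.mem_cons, List.not_mem_nil, or_false] at he
    rcases he with rfl | rfl | rfl | rfl | rfl | rfl <;> assumption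
  have e40 : T 4 0 ↔ T 0 4 := ⟨hs _ _, hs _ _⟩
  have e41 : T 4 1 ↔ T 1 4 := ⟨hs _ _, hs _ _⟩
  have e50 : T 5 0 ↔ T 0 5 := ⟨hs _ _, hs _ _⟩
  have e51 : T 5 1 ↔ T 1 5 := ⟨hs _ _, hs _ _⟩
  rw [e40, e41] at fP
  rw [e50, e51] at fQ
  have hcons : cons12 (decide (T 0 4)) (decide (T 0 5)) (decide (T 1 4)) (decide (T 1 5))
      (decide (T 0 6)) (decide (T 0 7)) (decide (T 1 6)) (decide (T 1 7))
      (decide (T 4 2)) (decide (T 4 3)) (decide (T 5 2)) (decide (T 5 3)) = true := by
    have x' := or_assoc.2 (or_assoc.2 x)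
    unfold cons12
    simp only [Bool.and_eq_true, Bool.or_eq_true, decide_eq_true_eq]
    exact ⟨⟨⟨⟨⟨⟨⟨⟨c6, c7⟩, p2⟩, p3⟩, x'⟩, fC⟩, fD⟩, fP⟩, fQ⟩
  have hc := cover _ _ _ _ _ _ _ _ _ _ _ _ hcons
  have hl : ∀ m, le m [decide (T 0 4), decide (T 0 5), decide (T 1 4), decide (T 1 5),
      decide (T 0 6), decide (T 0 7), decide (T 1 6), decide (T 1 7),
      decide (T 4 2), decide (T 4 3), decide (T 5 2), decide (T 5 3)] = true →
      ∀ i j, adj m i j = true → T i j := by
    intro m hm i j h
    refine adj_sound hs m hb (fun p hp h2 => ?_) i j h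
    have := le_sound (fun e : Fin 8 × Fin 8 => decide (T e.1 e.2)) E12 m hm p hp h2
    simpa using this
  rw [Bool.or_eq_true, List.any_eq_true, List.any_eq_true] at hc
  rcases hc with ⟨t, ht, h⟩ | ⟨t, ht, h⟩
  · right
    obtain ⟨k1, k2⟩ := goodK t ht
    refine ⟨t.2, fun i j h1 h2 => hl _ h _ _ (k1 i j h1 h2), fun c c' hcc => ?_⟩
    obtain ⟨i, j, h1, h2, h3⟩ := k2 c c' hcc
    exact ⟨i, j, h1, h2, hl _ h _ _ h3⟩
  · left
    obtain ⟨v1, v2, v3⟩ := goodV t ht
    exact ⟨⟨t.2.1, t.2.2, v1, v2⟩, fun i => ⟨hl _ h _ _ (v3 i).1, hl _ h _ _ (v3 i).2⟩⟩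

end Vale.Agent.P235.K5.H404
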